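import Vale.Agent.P153D.G3
import Vale.Agent.P153D.G4
import Vale.Agent.P153D.G5
import Vale.Agent.P153L.Main

/-! The local limit is the same for all domains and all boundary values `± 1`. -/

open Finset Filter Topology
open scoped Classical

noncomputable section

namespace Vale.Agent.P153D

open P152.GL P153L

theorem limD_of_lim {P : MeasureTheory.Measure P153.Cfg} (h : P153.IsLimit P) : IsLimD P := by
  intro D ξ hD hξ hx S η
  obtain ⟨M, hM⟩ := ex_sqr (S.image ph)
  have hS : ∀ x ∈ S, ph x ∈ sqr M := fun x hx => hM (mem_image_of_mem _ hx)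
  have h1 := tend_lJ noT (fam_zero (mean0 noT) (ray_hex (ph 0)) (tend_hex (ph 0))) (dep_ev M S η)
  have h2 := h 0 S η
  simp only [hexP_eq hS] at h2
  rw [tendsto_nhds_unique h2 h1]
  simp only [fun n => domP_eq (ray_ph (hD n)) (hξ n) hS η]
  exact lJ_any noT (tend_ph hx)
    (fun E hE => nu_any (mean0 noT) (fun n => ray_ph (hD n)) (tend_ph hx) _ hE) (dep_ev M S η)

end Vale.Agent.P153D
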