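import Vale.Agent.P153D.BStmt
import Vale.Agent.P153D.Main
import Vale.Agent.P153.Main

/-! From local convergence to the bulk limit. -/

open MeasureTheory Filter Topology

noncomputable section

namespace Vale.Agent.P153D

open Vale.Agent.P153

theorem admD_fin {D : Finset (ℤ × ℤ)} (hD : Out D) {ξ : Cfg} (hξ : ∀ x ∉ D, ξ x = 0 ∨ ξ x = -1) :
    (AdmD D ξ).Finite ∧ (AdmD D ξ).Nonempty := by
  have h := sp_bijz (ray_ph hD) hξ
  refine ⟨Set.Finite.of_finite_image (h.image_eq ▸ Finset.finite_toSet _) h.injOn,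
    fun x => if x ∈ D then 0 else ξ x, ?_, fun x hx => if_neg hx⟩
  have e : ∀ x, (if x ∈ D then 0 else ξ x) = 0 ∨ (if x ∈ D then 0 else ξ x) = -1 := fun x => by
    split_ifs with h1
    exacts [Or.inl rfl, hξ x h1]
  intro x
  refine ⟨?_, ?_, ?_⟩ <;> rw [abs_le]
  · rcases e x with a | a <;> rcases e (x + (1, 0)) with b | b <;> simp only [a, b] <;> omega
  · rcases e x with a | a <;> rcases e (x + (0, 1)) with b | b <;> simp only [a, b] <;> omega
  · rcases e x with a | a <;> rcases e (x + (-1, 1)) with b | b <;> simp only [a, b] <;> omega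

theorem avD_eq {D : Finset (ℤ × ℤ)} {ξ : Cfg} (h : (AdmD D ξ).Finite) {S : Finset (ℤ × ℤ)}
    {F : Cfg → ℝ} (hF : Loc S F) :
    avD D ξ F = ∑ t ∈ a2_T S, F (a2_ext S t) * domP D ξ S (a2_ext S t) := by
  classical
  rw [avD, finsum_mem_eq_finite_toFinset_sum _ h,
    Finset.sum_congr rfl fun k hk => a2_sum hF (h.mem_toFinset.1 hk).1, Finset.sum_comm,
    Finset.sum_div]
  refine Finset.sum_congr rfl fun t _ => ?_
  have e1 : {k ∈ AdmD D ξ | ∀ x ∈ S, k x - k 0 = a2_ext S t x} =
      ↑(h.toFinset.filter fun k => ∀ x ∈ S, k x - k 0 = a2_ext S t x) := by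
    ext k; simp
  rw [domP, e1, Set.ncard_coe_finset, ← Finset.mul_sum, Finset.card_filter, mul_div_assoc]
  push_cast
  rfl

theorem int_eq {P : Measure Cfg} [IsProbabilityMeasure P] (h : Good P) {S : Finset (ℤ × ℤ)}
    {F : Cfg → ℝ} (hF : Loc S F) : ∫ k, F k ∂P =
      ∑ t ∈ a2_T S, F (a2_ext S t) * P.real {k | ∀ x ∈ S, k x = a2_ext S t x} := by
  have e : F =ᵐ[P] fun k => ∑ t ∈ a2_T S, F (a2_ext S t) *
      {k : Cfg | ∀ x ∈ S, k x = a2_ext S t x}.indicator 1 k := by
    filter_upwards [h.lip] with k hk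
    rw [a2_sum hF hk.1]
    refine Finset.sum_congr rfl fun t _ => ?_
    simp only [hk.2, sub_zero, Set.indicator_apply, Set.mem_ofPred_eq, Pi.one_apply]
  rw [integral_congr_ae e, integral_finsetSum _ fun t _ =>
    ((integrable_const 1).indicator (a2_meas S _)).const_mul _]
  exact Finset.sum_congr rfl fun t _ => by
    rw [integral_const_mul, integral_indicator_one (a2_meas S _)]

theorem bulk {P : Measure Cfg} [IsProbabilityMeasure P] (hG : Good P) (h : IsLimD P) {σ : ℝ}
    (hT : ToGFF P σ) : Bulk σ := by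
  classical
  intro D ξ hD hξ hx m f hf φ ε hε
  have key : ∀ {S : Finset (ℤ × ℤ)} {F : ℕ → Cfg → ℝ} {G : Cfg → ℝ}, (∀ n, Loc S (F n)) → Loc S G →
      (∀ k, Tendsto (fun n => F n k) atTop (𝓝 (G k))) →
      Tendsto (fun n => avD (D n) (ξ n) (F n)) atTop (𝓝 (∫ k, G k ∂P)) := fun hF hG' hl => by
    simp only [fun n => avD_eq (admD_fin (hD n) (hξ n)).1 (hF n), int_eq hG hG']
    exact tendsto_finsetSum _ fun t _ => (hl _).mul (h D ξ hD hξ hx _ _)
  filter_upwards [Metric.tendsto_nhds.1 ((hT m f hf).2 φ) ε hε, self_mem_nhdsWithin] with δ h1 hδ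
  have h0 : ∀ j, Tendsto (fun n => avD (D n) (ξ n) (fld δ (f j))) atTop (𝓝 0) := fun j => by
    have h2 := key (fun _ => fld_loc hδ (hf j)) (fld_loc hδ (hf j)) fun _ => tendsto_const_nhds
    have h3 := hG.neg _ _ (fld_loc hδ (hf j))
    simp only [fld_neg, integral_neg] at h3
    rwa [show ∫ k, fld δ (f j) k ∂P = 0 by linarith] at h2
  have hl : ∀ j, Loc (Finset.univ.biUnion fun j => (Wt δ (f j)).support) (fld δ (f j)) :=
    fun j k k' e => fld_loc hδ (hf j) k k' fun x hx y hy =>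
      e x (Finset.mem_biUnion.2 ⟨j, Finset.mem_univ _, hx⟩) y
        (Finset.mem_biUnion.2 ⟨j, Finset.mem_univ _, hy⟩)
  have h2 := key (S := Finset.univ.biUnion fun j => (Wt δ (f j)).support)
    (F := fun n k => φ (WithLp.toLp 2 fun j =>
      fld δ (f j) k - avD (D n) (ξ n) (fld δ (f j))))
    (G := fun k => φ (WithLp.toLp 2 fun j => fld δ (f j) k))
    (fun n k k' e => by simp only [fun j => hl j k k' e])
    (fun k k' e => by simp only [fun j => hl j k k' e]) fun k =>
      ((φ.continuous.comp (PiLp.continuous_toLp 2 _)).tendsto _).comp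
        (tendsto_pi_nhds.2 fun j => by simpa using (h0 j).const_sub (fld δ (f j) k))
  rw [Real.dist_eq] at h1
  exact ((h2.sub_const _).abs).eventually (gt_mem_nhds h1)

end Vale.Agent.P153D
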